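import Crest.Agent.X212.Cok75.Abs
import Crest.Agent.X212.Wz78.Boch
import Crest.Agent.X212.Lns95.Pos
import Crest.Agent.X212.Nk89.Geo
import Crest.Agent.X212.Map77.Row

-- ▼ part X212/Cok75/Est
section

/-! # Row 212, RF-COK: the Weitzenboeck bound on `Λ⁺ ⊗ g` at an anti-self-dual connection -/

set_option linter.unusedSectionVars false
open scoped Manifold ContDiff Topology InnerProductSpace
open Finset MeasureTheory
noncomputable section
namespace Crest.Agent.X212.Cok75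
open An Sob92 Map77 Ell97 Wz78 Lns95

section alg
variable {ι : Type} [Fintype ι]

theorem rm_term {R : ι → ι → ι → ι → ℝ} (h : Curv R) {T : ι × ι → ι × ι → ℝ}
    (hT : ∀ a k t, T (a, k) t = -T (k, a) t) :
    2 * ∑ a, ∑ b, ∑ k, ∑ j, R a b k j * T (a, k) (b, j) =
      ∑ s, ∑ t, R s.1 s.2 t.1 t.2 * T s t := by
  have e1 : ∑ a, ∑ b, ∑ k, ∑ j, R a b k j * T (a, k) (b, j) =
      ∑ a, ∑ k, ∑ b, ∑ j, R a b k j * T (a, k) (b, j) := sum_congr rfl fun a _ => sum_comm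
  have e2 : ∑ a, ∑ k, ∑ b, ∑ j, R a b k j * T (a, k) (b, j) =
      ∑ a, ∑ k, ∑ b, ∑ j, -(R k b a j * T (a, k) (b, j)) := by
    rw [sum_comm]
    exact sum_congr rfl fun a _ => sum_congr rfl fun k _ => sum_congr rfl fun b _ =>
      sum_congr rfl fun j _ => by rw [hT k a]; ring
  rw [e1, two_mul]
  nth_rewrite 2 [e2]
  simp only [Fintype.sum_prod_type, ← sum_add_distrib]
  refine sum_congr rfl fun a _ => sum_congr rfl fun k _ => sum_congr rfl fun b _ =>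
    sum_congr rfl fun j _ => ?_
  have := h.bi a b k j
  have := h.s12 k b a j
  have := h.s12 a k b j
  rw [show R a k b j = R a b k j - R k b a j by linarith]; ring

variable {P : ι → ι → ℝ} {U : Fin 4 → ι → ℝ}

theorem wq_c (h : On0 P U) (p q r s : Fin 4) (a b : ι) : ∑ k, wq U p q a k * wq U r s b k =
    U p a * U r b * (if q = s then 1 else 0) - U p a * U s b * (if q = r then 1 else 0)
      - U q a * U r b * (if p = s then 1 else 0) + U q a * U s b * if p = r then 1 else 0 := by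
  simp only [← h.on, mul_sum, ← sum_sub_distrib, ← sum_add_distrib, wq]
  exact sum_congr rfl fun k _ => by ring

theorem sdb_c (h : On0 P U) (i j : Fin 3) : ∃ (c : ℝ) (d : Fin 3 → ℝ), ∀ a b,
    ∑ k, sdb U i (a, k) * sdb U j (b, k) = c * P a b + ∑ l, d l * sdb U l (a, b) := by
  refine ⟨if i = j then 1 else 0, fun l => (if j = i + 1 ∧ l = i + 2 then 1 else 0)
    - if j = i + 2 ∧ l = i + 1 then 1 else 0, fun a b => ?_⟩
  fin_cases i <;> fin_cases j <;>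
    simp [sdb, add_mul, mul_add, sum_add_distrib, wq_c h, ← h.pr, Fin.sum_univ_four]
      <;> (try simp only [wq]) <;> ring

theorem f_term (h : On0 P U) {V : Type} [NormedAddCommGroup V] [InnerProductSpace ℝ V]
    (c : Fin 3 → V) {f : ι × ι → V →L[ℝ] V} (h0 : ∑ s : ι × ι, P s.1 s.2 • f s = 0)
    (h1 : ∀ l, ∑ s, sdb U l s • f s = 0) :
    ∑ a, ∑ b, ∑ k, ⟪∑ i, sdb U i (a, k) • c i, f (a, b) (∑ i, sdb U i (b, k) • c i)⟫_ℝ = 0 := by
  have e : ∀ i j, ∑ s : ι × ι, (∑ k, sdb U i (s.1, k) * sdb U j (s.2, k)) * ⟪c i, f s (c j)⟫_ℝ = 0 :=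
    fun i j => by
      obtain ⟨c₀, d, hd⟩ := sdb_c h i j
      have k0 := congrArg (fun T : V →L[ℝ] V => ⟪c i, T (c j)⟫_ℝ) h0
      have k1 := fun l => congrArg (fun T : V →L[ℝ] V => ⟪c i, T (c j)⟫_ℝ) (h1 l)
      simp only [_root_.sum_apply, smul_apply, inner_sum, real_inner_smul_right, zero_apply,
        inner_zero_right] at k0 k1
      simp only [hd, add_mul, sum_add_distrib, sum_mul, mul_assoc, ← mul_sum, k0]
      rw [sum_comm]
      simp [← mul_sum, k1]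
  have e2 : ∀ a b, ∑ k, ⟪∑ i, sdb U i (a, k) • c i, f (a, b) (∑ i, sdb U i (b, k) • c i)⟫_ℝ =
      ∑ i, ∑ j, (∑ k, sdb U i (a, k) * sdb U j (b, k)) * ⟪c i, f (a, b) (c j)⟫_ℝ := fun a b => by
    simp only [map_sum, map_smul, sum_inner, real_inner_smul_left]
    simp only [inner_sum, real_inner_smul_right, sum_mul, mul_sum, mul_assoc]
    exact sum_comm.trans (sum_congr rfl fun i _ => sum_comm)
  simp only [e2]
  rw [← Fintype.sum_prod_type', sum_comm]
  exact sum_eq_zero fun i _ => sum_comm.trans (sum_eq_zero fun j _ => e i j)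

end alg

variable {E : Type} [NormedAddCommGroup E] [NormedSpace ℝ E] [FiniteDimensional ℝ E]
  [MeasurableSpace E] [BorelSpace E]
  {HM : Type} [TopologicalSpace HM] {I : ModelWithCorners ℝ E HM}
  {M : Type} [TopologicalSpace M] [ChartedSpace HM M] [IsManifold I ∞ M]
  [MeasurableSpace M] {ι : Type} [Fintype ι] {lam : Type} [Fintype lam]
  {m : Md M ι lam} {B : Base M ι lam} {G : Geo I M ι lam} {W : m.Cn} {x : M}
  (hB : B.OK I) (hG : G.OK B) (H : m.OK I B) (C : m.IsConn B G W)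
include hB hG H C

theorem kA_ge {d : Bd M ι (Fin m.N)} (hp : PosW B G (1 / 2) x)
    (hA : m.p2 B x (m.Fg G.F W x) = 0) {y : P2 m.A (Ef ι (Fin m.N))} (h1 : f2 _ _ y = 0)
    (h2 : f2 _ _ (s2 _ _ y) = 0) {η : Fm (ι × ι) m.A} (hy : s2 _ _ (s2 _ _ y) = η)
    (h3 : m.p2 B x η = η) : 1 / 2 * ‖η‖ ^ 2 ≤ kA d G.F G.F.Gam W x y y := by
  have hg : ∀ s, m.pg x (η s) = η s := fun s => by
    have := p2_mem (B := B) (x := x) η s
    rw [h3] at this
    exact Submodule.starProjection_eq_self_iff.2 this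
  have hs : ∀ s, ∑ t, B.sd x s t • η t = η s := fun s => by
    conv_rhs => rw [← h3]
    simp only [Md.p2, Wz78.idx_apply, hg]
  obtain ⟨U, hU⟩ := b_on hB x
  have e0 : ∀ {V : Type} [AddCommGroup V] [Module ℝ V] (ζ : ι × ι → V) (s : ι × ι),
      ∑ t, B.sd x s t • ζ t = ∑ i, sdb U i s • ((1 / 4 : ℝ) • ∑ t, sdb U i t • ζ t) := fun ζ s => by
    simp only [sd_eq hU, sum_div, sum_smul, smul_sum, smul_smul]
    exact sum_comm.trans (sum_congr rfl fun _ _ => sum_congr rfl fun _ _ => by congr 1; ring)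
  have hF : ∀ l, ∑ t, sdb U l t • m.Fg G.F W x t = 0 := fun l => by
    have k : ∀ s, ∑ i, sdb U i s • ((1 / 4 : ℝ) • ∑ t, sdb U i t • m.Fg G.F W x t) = 0 := fun s => by
      rw [← e0]
      simpa only [Md.p2, Wz78.idx_apply, Submodule.starProjection_eq_self_iff.2 (Fg_mem _ _), Md.pg,
        PiLp.zero_apply] using congrArg (fun z : Fm (ι × ι) m.A => z s) hA
    have := sum_eq_zero (s := univ) fun s _ => (congrArg (sdb U l s • ·) (k s)).trans (smul_zero _)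
    simp only [smul_sum (s := (univ : Finset (Fin 3))), smul_smul _ (sdb U _ _)] at this
    rw [sum_comm] at this
    simp only [← sum_smul, sdb_sdb hU.toOn0] at this
    simpa [smul_smul] using this
  have hP : ∑ s : ι × ι, B.P s.1 s.2 x • m.Fg G.F W x s = 0 := by
    have : ∑ s : ι × ι, B.P s.1 s.2 x • m.Fg G.F W x s = -∑ s : ι × ι, B.P s.1 s.2 x • m.Fg G.F W x s := by
      rw [← sum_neg_distrib, ← (Equiv.prodComm ι ι).sum_comp]
      exact sum_congr rfl fun s _ => by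
        rw [Equiv.prodComm_apply, Fg_swap hG C, smul_neg, Prod.fst_swap, Prod.snd_swap,
          (hB.pr x).symm]
    exact (smul_eq_zero.1 ((two_smul ℝ _).trans (eq_neg_iff_add_eq_zero.1 this))).resolve_left
      two_ne_zero
  have kF := f_term hU.toOn0 (fun i => (1 / 4 : ℝ) • ∑ t, sdb U i t • η t)
    (f := fun s => adcL (opL (m.Fg G.F W x s)))
    (by simp only [← map_smul, ← map_sum, hP, map_zero])
    fun l => by simp only [← map_smul, ← map_sum, hF, map_zero]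
  simp only [← e0, hs, adcL_apply] at kF
  have kR := rm_term ((glc hG).curvT (gfrm hG) (gsep hG) x) (T := fun s t => ⟪η s, η t⟫_ℝ)
    fun a k t => by
      rw [← inner_neg_left, ← hs (a, k), ← hs (k, a), ← sum_neg_distrib]
      simp only [← neg_smul, ← sd_swap hB, Prod.swap_prod_mk]
  have kp := sum_le_sum (s := univ) fun q _ => hp (fun s => η s q) fun s => by
    simpa using congrArg (fun z : m.A => z q) (hs s)
  simp only [kA, h1, h2, hy, adc_curv_g hB hG H C _ _ (hg _), kF, kR, map_zero, inner_zero_right,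
    inner_zero_left, sub_self, sum_const_zero, mul_zero, sub_zero, add_zero,
    real_inner_self_eq_norm_sq]
  rw [PiLp.norm_sq_eq_of_L2]
  simp only [EuclideanSpace.real_norm_sq_eq, PiLp.inner_apply, ← mul_sum, sum_add_distrib] at kp ⊢
  rw [sum_comm (f := fun (s : ι × ι) i => η s i ^ 2)]
  refine kp.trans (le_of_eq (congrArg₂ _ rfl (sum_comm.trans (sum_congr rfl fun s _ =>
    sum_comm.trans (sum_congr rfl fun t _ => ?_)))))
  simp only [← mul_sum, Real.inner_apply]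

variable [I.Boundaryless] [T2Space M] [BorelSpace M] [SecondCountableTopology M]

/-- coercivity of the adjoint of the linearised equations -/
theorem est {Ω : Set M} {d : Bd M ι (Fin m.N)} (C' : Cp d G.F G.F.Gam W) (hs : ∀ x, d.sm x = 0)
    (h2 : ∀ x ∈ Ω, d.p2 x = m.p2 B x) (h3 : ∀ x ∉ Ω, d.p2 x = 0) (hp : ∀ x ∈ Ω, PosW B G (1 / 2) x)
    (hA : ∀ x ∈ Ω, m.p2 B x (m.Fg G.F W x) = 0) (w : Sec I d.pE) :
    1 / 2 * ∫ x, ‖w.1 x‖ ^ 2 ∂G.F.μ ≤
      ∫ x, ‖((d.lin G.F (base W 0)).adj G.F).app G.F w.1 x‖ ^ 2 ∂G.F.μ := by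
  classical
  let y : M → P2 m.A (Ef ι (Fin m.N)) := fun x => i2 _ _ (w.1 x)
  have sy : Sm I y := fun x => SA.clm _ (w.2.1 x)
  have cy : HasCompactSupport y := w.2.2.1.mono fun x hx k => hx (by simp [y, k])
  have py : ∀ x, ps d.g d.pE x (y x) = y x := fun x => ext2 (by simp [y]) (by simp [y, w.2.2.2])
  have hR := riem_of_vol hG.vol
  have R := C'.rp_adj 0
  have b := R.boch C'.lc hR C'.con_cT C'.skew_cC (C'.ok.cliff_full C'.P _).2 C'.sm_pT C'.pT_par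
    sy sy cy py py
  have h0 : Op.tr (0 : CL (Cf ι (Fin m.N)) (P2 m.A (Ef ι (Fin m.N)))) = 0 := by
    rw [← trL_apply, map_zero]
  simp only [hR.dft C'.lc, zero_smul, sum_const_zero, add_zero, ContinuousLinearMap.comp_apply,
    zf_zero (hR.dft C'.lc · _) (Pi.zero_apply _), h0, zero_apply, map_zero, sub_zero] at b
  have e : ∀ x, ((d.full G.F (base W 0)).adj G.F).app G.F y x =
      ((d.lin G.F (base W 0)).adj G.F).app G.F w.1 x :=
    adj_pair (C'.rp_row 0).sy.sm (C'.rp_lin 0).sy.sm rfl w.2.1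
  simp only [← e, ← real_inner_self_eq_norm_sq]
  rw [b, ← integral_const_mul]
  have n := fun a => sm_nab (F := G.F) C'.con_cT.sm a sy
  refine integral_mono ((integ (fun x => SA.inner (w.2.1 x) (w.2.1 x))
    (hcs_inner _ w.2.2.1)).const_mul _) ((integrable_finsetSum _ fun a _ => integ
      (fun x => SA.inner (n a x) (n a x)) (hcs_inner _ (hcs_nab a cy))).sub
      ((integrable_finsetSum _ fun a _ => integrable_finsetSum _ fun b _ => integ
        (fun x => SA.inner ((R.sy.sm a x).app (sy x)) ((R.sy.sm b x).app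
          (SA.app (sm_curv (F := G.F) C'.con_cT.sm a b x) (sy x))))
        (hcs_inner _ (cy.mono fun x hx k => hx (by simp [k])))).const_mul _)) fun x => ?_
  have k1 : f2 _ _ (w.1 x) = 0 := by rw [← w.2.2.2 x, f2_ps, hs, zero_apply]
  have k2 : d.p2 x (s2 _ _ (w.1 x)) = s2 _ _ (w.1 x) := by rw [← s2_ps, w.2.2.2]
  have k3 : 0 ≤ ∑ a, ⟪nab I G.F.e (cT G.F G.F.Gam W) a y x, nab I G.F.e (cT G.F G.F.Gam W) a y x⟫_ℝ :=
    sum_nonneg fun a _ => real_inner_self_nonneg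
  simp only [C'.curv_term' (py x) (py x), inner2 (w.1 x), k1, inner_zero_left, zero_add,
    real_inner_self_eq_norm_sq (s2 _ _ (w.1 x))]
  by_cases hx : x ∈ Ω
  · have := kA_ge hB hG H C (d := d) (hp x hx) (hA x hx) (y := y x) (by simp [y]) (by simp [y, k1])
      (η := s2 _ _ (w.1 x)) (by simp [y]) (h2 x hx ▸ k2)
    linarith
  · have k4 : s2 _ _ (w.1 x) = 0 := by rw [← k2, h3 x hx, zero_apply]
    have : y x = 0 := by rw [show y x = i2 _ _ (w.1 x) from rfl, ext2 (k1.trans (map_zero _).symm)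
      (k4.trans (map_zero _).symm), map_zero]
    simpa [k4, this, kA] using k3

end Crest.Agent.X212.Cok75
end
end

-- ▼ part X212/Cok75/Wgt
section

/-! # Row 212, RF-COK: a small weight for the frame of a parameter; directions inside a clopen set -/

set_option autoImplicit false
set_option linter.unusedSectionVars false
noncomputable section
open scoped Manifold ContDiff Topology InnerProductSpace NNReal
open MeasureTheory Set Function Filter

namespace Crest.Agent.X212.Cok75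
open An An.Pre Sob92 Ell97 Prm93 Mod61 Map77 Nk89 Gl67

variable {E : Type} [NormedAddCommGroup E] [NormedSpace ℝ E] [FiniteDimensional ℝ E]
  [MeasurableSpace E] [BorelSpace E]
  {HM : Type} [TopologicalSpace HM] {I : ModelWithCorners ℝ E HM} [I.Boundaryless]
  {M : Type} [TopologicalSpace M] [ChartedSpace HM M] [IsManifold I ∞ M]
  [MeasurableSpace M] [T2Space M] [BorelSpace M] [SecondCountableTopology M]
  {ι κ : Type} [Fintype ι] [Fintype κ] {lam : Type} [Fintype lam]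
  {T : Type} [NormedAddCommGroup T] [NormedSpace ℝ T]

theorem wm_le_wm (F F' : Pre I M ι) {ν ν' : Measure M} {ψ ψ' : M → ℝ} (c : Continuous ψ)
    (c' : Continuous ψ') (e : F.μ = wm ν ψ) (e' : F'.μ = wm ν' ψ') {K : Set M} (hK : IsCompact K)
    (h : ν'.restrict Kᶜ = ν.restrict Kᶜ) {C : ℝ} (hC : ∀ x, ψ' x - ψ x ≤ C) :
    ∃ c : ℝ≥0, F'.μ ≤ c • F.μ := by
  obtain ⟨a, ha⟩ := meas_le_compact F F' hK
  refine ⟨a + (Real.exp (2 * C)).toNNReal, ?_⟩
  rw [← Measure.restrict_add_restrict_compl (μ := F'.μ) hK.measurableSet, add_smul]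
  refine add_le_add ha ?_
  have k : ∀ (μ : Measure M) (φ : M → ℝ), (wm μ φ).restrict Kᶜ = wm (μ.restrict Kᶜ) φ := fun μ φ =>
    restrict_withDensity hK.measurableSet.compl _
  have : wm ν ψ' = wm F.μ (ψ' - ψ) := by rw [e, wm_wm c (c'.sub c), add_sub_cancel]
  rw [e', k, h, ← k, this]
  exact Measure.restrict_le_self.trans (wm_le hC)

theorem exists_wt {𝔉 : Fam I M (Option κ) lam T} {δ : ℝ} (X : Ends 𝔉 δ) {t : T} (ht : t ∈ 𝔉.Q) :
    ∃ (ψ : M → ℝ) (h : Sm I ψ), (∀ x, ∑ a, (𝔉.G t).F.D a ψ x ^ 2 ≤ 1 / 4) ∧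
      Tw 𝔉.F0 (wt (𝔉.G t).F ψ h) := by
  have sψ := X.wt.sm
  obtain ⟨L, hL⟩ := X.cov.bddAbove_image sψ.continuous.continuousOn
  have c1 : ContDiff ℝ ∞ fun s => ka (s - L) := cd_ka.comp (contDiff_id.sub contDiff_const)
  have s1 : Sm I fun x => ka (X.ψ x - L) := c1.contMDiff.comp sψ
  have d : ∀ a, (𝔉.G t).F.D a (fun x => ka (X.ψ x - L)) =
      fun x => Real.smoothTransition (X.ψ x - L) • (𝔉.G t).F.D a X.ψ x := fun a => funext fun x => by
    rw [D_comp sψ c1, ((ka_deriv _).comp_sub_const _ L).deriv, smul_eq_mul]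
  have m := X.ok.mix t ht
  have cS := fun a b => (X.ok.sS a b).cb t ht
  have c0 : ∀ b, 𝔉.F0.Cb (𝔉.F0.D b X.ψ) := fun b => X.wt.toWtP.Cb.2 (X.wt.toWtP.D b X.ψ ▸ X.dψ b)
  obtain ⟨C, hC⟩ := Cb_unif c0
  obtain ⟨D, hD⟩ := Cb_unif (F := (𝔉.G t).F.toPre)
    (f := fun a => (𝔉.G t).F.D a fun x => ka (X.ψ x - L)) fun a => by
      rw [d, m.D]
      exact m.Cb cS (Cb_smul ⟨_, (cd_st L).contMDiff.comp sψ, fun k =>
        CB_comp sψ (fun a => (hC a).2 k) (cd_st L) (bd_st k L)⟩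
        (Cb_sum _ fun b _ => Cb_smul (cS a b) (c0 b)))
  have w := wt_wt (𝔉.G t).F s1
  have e : (𝔉.G t).F.μ.restrict (⋃ a, (X.P a).U X.R)ᶜᶜ = 𝔉.G0.F.μ.restrict (⋃ a, (X.P a).U X.R)ᶜᶜ := by
    rw [compl_compl]; exact Measure.restrict_iUnion_congr.2 fun a => (X.okP a).μ t ht
  refine ⟨_, s1, fun x => ?_, X.ok.tame,
    ⟨_, w.tame (X.ok.tameG t ht).choose_spec (fun _ => ka_nonneg _) hD⟩,
    ⟨⟨_, m, cS⟩, wm_le_wm _ _ sψ.continuous s1.continuous X.wt.μ w.μ X.cov e (C := |L|) fun x => ?_⟩,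
    ⟨_, mix_inv X.ok ht, fun a b => w.toWtP.Cb.2 (m.Cb cS ((X.ok.sSi a b).cb t ht))⟩,
    wm_le_wm _ _ s1.continuous sψ.continuous w.μ X.wt.μ X.cov e.symm (C := L + 1) fun x => ?_⟩
  · simp only [d, smul_eq_mul, mul_pow, ← Finset.mul_sum]
    by_cases hx : x ∈ ⋃ a, (X.P a).U X.R
    · obtain ⟨a, ha⟩ := mem_iUnion.1 hx
      have h4 := X.sml x
      simp only [Pre.D_def, Met55.dv_vcongr ((X.okP a).G_e X.ok ht ha _).symm] at h4
      refine (mul_le_of_le_one_left (Finset.sum_nonneg fun _ _ => sq_nonneg _)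
        (pow_le_one₀ (Real.smoothTransition.nonneg _) (Real.smoothTransition.le_one _))).trans h4
    · rw [Real.smoothTransition.zero_of_nonpos (sub_nonpos.2 (hL ⟨x, hx, rfl⟩))]; norm_num
  · have := X.ψ0 x
    rcases le_total 0 (X.ψ x - L) with k | k
    · linarith [ka_lip k, ka_zero le_rfl, neg_abs_le L]
    · linarith [ka_zero k, abs_nonneg L]
  · rcases le_total 1 (X.ψ x - L) with k | k
    · linarith [ka_lin le_rfl k, ka_nonneg 1]
    · linarith [ka_nonneg (X.ψ x - L)]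

variable {𝔉 : Fam I M ι lam T} {o : Ref 𝔉} {Fs : T → Fr I M ι} {r n m k : ℕ} {Ω : Set M}

/-- the point `y` with the connection moved by `a` -/
def mv (y : Pnt o r) (a : M → Fm ι o.m.A) (ha : a ∈ Mod61.Hs 𝔉.F0.toPre o.P1) : Pnt o r :=
  ⟨y.α + a, y.φ, y.z, y.t, add_mem y.hα ha, y.hφ, y.ht⟩

variable (Ω) in
/-- the terms do not see the connection on `Ω` -/
def Bl (e : T → PtX M ι lam r n m) (y : Pnt o r) : Prop := ∀ a ha, (∀ z ∉ Ω, a z = 0) →
  (∀ z ∈ 𝔉.Om', (e y.t).D (mv y a ha).cfg z - (𝔉.eq0 r n m y.t).D (mv y a ha).cfg z =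
    (e y.t).D y.cfg z - (𝔉.eq0 r n m y.t).D y.cfg z) ∧
  (∀ z ∈ 𝔉.Om, (e y.t).C (mv y a ha).cfg z - (𝔉.eq0 r n m y.t).C (mv y a ha).cfg z =
    (e y.t).C y.cfg z - (𝔉.eq0 r n m y.t).C y.cfg z) ∧
  (e y.t).S (mv y a ha).cfg = (e y.t).S y.cfg ∧ (e y.t).R (mv y a ha).cfg = (e y.t).R y.cfg

theorem ind_sub {N : Type} [AddCommGroup N] {O : Set M} {a b a' b' c : M → N}
    (h : ∀ z ∈ O, a' z - b' z = a z - b z) :
    O.indicator a' - (O.indicator b' - c) = O.indicator a - (O.indicator b - c) := funext fun z => by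
  by_cases hz : z ∈ O
  · simp only [Pi.sub_apply, indicator_of_mem hz, ← sub_add, h z hz]
  · simp only [Pi.sub_apply, indicator_of_notMem hz]

theorem dif_eq (h : Adj 𝔉 Fs) (hk : 6 ≤ k) {e : T → PtX M ι lam r n m} {y : Pnt o r} (H : Bl Ω e y)
    {f : o.C r k → o.Y n m k} (hf : RepF e f) {a : M → Fm ι o.m.A}
    (ha : a ∈ Mod61.Hs 𝔉.F0.toPre o.P1) (h0 : ∀ z ∉ Ω, a z = 0) :
    f ((mv y a ha).pt k) - f0 o Fs r n m k ((mv y a ha).pt k) =
      f (y.pt k) - f0 o Fs r n m k (y.pt k) := by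
  obtain ⟨r1, r2, r3, r4⟩ := H a ha h0
  obtain ⟨a1, a2, a3⟩ := h.val_f0 (n := n) (m := m) hk y
  obtain ⟨b1, b2, b3⟩ := h.val_f0 (n := n) (m := m) hk (mv y a ha)
  have p := hf.2 y
  have q := hf.2 (mv y a ha)
  refine Y_ext h.toOK (by omega) ((val_sub _ _).trans (((congrArg₂ (· - ·) q.D b1).trans
    ((ind_sub r1).trans (congrArg₂ (· - ·) p.D a1).symm)).trans (val_sub _ _).symm))
    ((val_sub _ _).trans (((congrArg₂ (· - ·) q.C b2).trans
    ((ind_sub r2).trans (congrArg₂ (· - ·) p.C a2).symm)).trans (val_sub _ _).symm))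
    (congrArg₂ (· - ·) ?_ (b3.trans a3.symm))
  exact Prod.ext (q.S.trans (r3.trans p.S.symm)) (q.R.trans (r4.trans p.R.symm))

theorem fd_eq (h : Adj 𝔉 Fs) (hk : 6 ≤ k) (hΩ : IsClopen Ω) {e : T → PtX M ι lam r n m}
    {y : Pnt o r} (H : Bl Ω e y) {f : o.C r k → o.Y n m k} (hf : RepF e f) {v : o.C r k}
    (h1 : ∀ z ∉ Ω, 𝔉.F0.val _ _ v.1 z = 0) (h2 : v.2 = 0) :
    fderiv ℝ f (y.pt k) v = fderiv ℝ (f0 o Fs r n m k) (y.pt k) v := by
  have S := sup0 h.toOK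
  have cχ : 𝔉.F0.Cb (Ω.indicator fun _ => ContinuousLinearMap.id ℝ (Fm ι o.m.A)) :=
    Eqv71.Cb_ind hΩ (Cb_const _)
  have mχ : Maps o.P1 o.P1 (Ω.indicator fun _ => ContinuousLinearMap.id ℝ (Fm ι o.m.A)) :=
    fun x w hw => by by_cases hx : x ∈ Ω <;> simp [hx, hw]
  obtain ⟨L, hL⟩ : ∃ L : 𝔉.F0.H (k + 1) o.P1 →L[ℝ] o.C r k, ∀ a, L a = (𝔉.F0.mulH (k + 1) _ _
      (Ω.indicator fun _ => ContinuousLinearMap.id ℝ (Fm ι o.m.A)) a, 0) :=
    ⟨.inl ℝ _ _ ∘L _, fun _ => rfl⟩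
  have sm := hf.1.sub (h.sm_f0 (n := n) (m := m))
  have U : ∀ a, y.pt k + L a ∈ o.U r k := fun a => by
    rw [hL]; exact (mem_of_eq_of_mem (add_zero y.t) y.ht : y.t + 0 ∈ 𝔉.Q)
  have key : ∀ a, f (y.pt k + L a) - f0 o Fs r n m k (y.pt k + L a) =
      f (y.pt k) - f0 o Fs r n m k (y.pt k) := fun a => by
    induction a using H_ind with
    | hP => exact isClosed_eq (sm.continuousOn.comp_continuous
        (continuous_const.add L.continuous) U) continuous_const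
    | h s =>
      obtain ⟨s', e1, e2⟩ := rep_mulH (k := k + 1) cχ mχ s
      have e3 : y.pt k + L (𝔉.F0.toH _ _ s) = (mv y s'.1 (sec_hs S s')).pt k := by
        rw [hL, e2]
        refine Prod.ext (ofV_eq S (by omega) ?_).symm (add_zero _)
        exact (val_add _ _).trans (congrArg₂ _ (val_ofV y.hα (by omega)) (val_toH S (by omega) _))
      rw [e3]
      exact dif_eq h hk H hf _ fun z hz => by rw [e1]; simp [hz]
  have N := (Mod61.isOpen_U (k := k) h.toOK).mem_nhds (pt_mem y)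
  have a := ((hf.1.contDiffAt N).differentiableAt (by simp)).hasFDerivAt.sub
    (((h.sm_f0 (n := n) (m := m)).contDiffAt N).differentiableAt (by simp)).hasFDerivAt
  have b := HasFDerivAt.comp 0 (by rw [map_zero, add_zero]; exact a)
    ((L.hasFDerivAt (x := 0)).const_add (y.pt k))
  have c := DFunLike.congr_fun (b.unique ((hasFDerivAt_const _ _).congr_of_eventuallyEq
    (.of_forall key))) v.1
  have e : L v.1 = v := (hL _).trans (Prod.ext (val_injective S (by omega : 4 ≤ k + 1) (funext fun z =>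
    (val_mulH S (by omega) cχ mχ _ z).trans (by by_cases hz : z ∈ Ω <;> simp [hz, h1]))) h2.symm)
  rw [ContinuousLinearMap.comp_apply, e] at c
  exact sub_eq_zero.1 c

end Crest.Agent.X212.Cok75
end
end

-- ▼ part X212/Cok75/Fam

/-! # Row 212, RF-COK: the curvature equation is onto over a positive anti-self-dual component -/

set_option autoImplicit false
set_option linter.unusedSectionVars false
noncomputable section
open scoped Manifold ContDiff Topology InnerProductSpace NNReal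
open MeasureTheory Set Function Filter

namespace Crest.Agent.X212.Cok75
open An An.Pre Sob92 Ell97 Prm93 Mod61 Map77 Nk89

variable {E : Type} [NormedAddCommGroup E] [NormedSpace ℝ E] [FiniteDimensional ℝ E]
  [MeasurableSpace E] [BorelSpace E]
  {HM : Type} [TopologicalSpace HM] {I : ModelWithCorners ℝ E HM} [I.Boundaryless]
  {M : Type} [TopologicalSpace M] [ChartedSpace HM M] [IsManifold I ∞ M]
  [MeasurableSpace M] [T2Space M] [BorelSpace M] [SecondCountableTopology M]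
  {ι κ : Type} [Fintype ι] [Fintype κ] {lam : Type} [Fintype lam]
  {T : Type} [NormedAddCommGroup T] [NormedSpace ℝ T] {r n m k : ℕ} {Ω : Set M}

theorem sm_adjB {V W : Type} [NormedAddCommGroup V] [InnerProductSpace ℝ V] [FiniteDimensional ℝ V]
    [NormedAddCommGroup W] [InnerProductSpace ℝ W] [FiniteDimensional ℝ W] {A : Op M ι V W}
    (F : Fr I M ι) (hp : Sm I A.p) (hσ : ∀ a, Sm I (A.σ a)) (hB : Sm I A.B) : Sm I (A.adj F).B :=
  hp.clm_comp ((sm_tr hB).sub (contMDiff_finsetSum fun a _ =>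
    (F.sm_D (sm_tr (hσ a)) a).add ((F.dv_sm a).smul (sm_tr (hσ a)))))

theorem LH_e {V W : Type} [NormedAddCommGroup V] [InnerProductSpace ℝ V] [FiniteDimensional ℝ V]
    [NormedAddCommGroup W] [InnerProductSpace ℝ W] [FiniteDimensional ℝ W] {A : Op M ι V W}
    {F G G' : Pre I M ι} (h : G'.e = G.e) {p : M → V →L[ℝ] V} {q : M → W →L[ℝ] W} :
    LH F G' k p q A = LH F G k p q A :=
  congrArg (F.lift (k + 1) k p q) (funext fun u => funext fun x => by simp only [Pre.op, D_def, h])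

section fam
variable {𝔉 : Fam I M ι lam T} (o : Ref 𝔉)

variable (Ω) in
/-- the bundles cut down to `Ω` -/
def bΩ : Bd M ι (Fin o.m.N) := Wz78.ind (Wz78.bdOf 𝔉.B o.m) Ω ∅

theorem hy_Ω (h : 𝔉.OK) (hΩ : IsClopen Ω) {G : Fr I M ι} (hG : Tw 𝔉.F0 G) (hP : G.P = 𝔉.B.P) :
    (bΩ Ω o).Hy 𝔉.F0 G :=
  have g : 𝔉.F0.Cb (Ω.indicator o.m.pg) := Eqv71.Cb_ind hΩ ((dat o h).pg h.B (Std94.pmx o.ok))
  ⟨hG, Wz78.ok_ind (Wz78.bdOf_ok h.B o.ok) _ _, hP, cb_P h, o.cρ, g,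
    Std94.Kl.idx (K := Std94.cbK 𝔉.F0.toPre) (cb_P h) g,
    Std94.Kl.idx (K := Std94.cbK 𝔉.F0.toPre) (dat o h).sd g,
    Eqv71.Cb_ind isClopen_empty (dat o h).pp, Eqv71.Cb_ind isClopen_empty (dat o h).pm⟩

theorem sm_Ω (x : M) : (bΩ Ω o).sm x = 0 := indicator_of_notMem (notMem_empty x) _
theorem sp_Ω (x : M) : (bΩ Ω o).sp x = 0 := indicator_of_notMem (notMem_empty x) _

variable {o} {x : M}

theorem p2_in (hx : x ∈ Ω) : (bΩ Ω o).p2 x = o.m.p2 𝔉.B x :=
  congrArg (idx (𝔉.B.sd x)) (indicator_of_mem hx _)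

theorem idx_zero {α X : Type} [Fintype α] [NormedAddCommGroup X] [InnerProductSpace ℝ X]
    (S : α → α → ℝ) : idx S (0 : X →L[ℝ] X) = 0 :=
  ContinuousLinearMap.ext fun v => fm_ext fun a => by simp

theorem p2_off (hx : x ∉ Ω) : (bΩ Ω o).p2 x = 0 :=
  (congrArg (idx (𝔉.B.sd x)) (indicator_of_notMem hx _)).trans (idx_zero _)

theorem p1_off (hx : x ∉ Ω) : (bΩ Ω o).p1 x = 0 :=
  (congrArg (idx fun a b => 𝔉.B.P a b x) (indicator_of_notMem hx _)).trans (idx_zero _)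

theorem pC_off (hx : x ∉ Ω) {v : Cf ι (Fin o.m.N)} (h : (bΩ Ω o).pC x v = v) : v = 0 :=
  h ▸ ext2 (by rw [f2_ps, p1_off hx]; simp) (by rw [s2_ps, sp_Ω]; simp)

theorem pE_off (hx : x ∉ Ω) (v : Ef ι (Fin o.m.N)) : (bΩ Ω o).pE x v = 0 :=
  ext2 (by rw [f2_ps, sm_Ω]; simp) (by rw [s2_ps, p2_off hx]; simp)

variable (h1 : Ω ⊆ 𝔉.Om) (h2 : ∀ x ∈ Ω, x ∉ 𝔉.Om') (hx : x ∈ Ω)
include h1 h2 hx

theorem pC_in (v : Cf ι (Fin o.m.N)) : (bd o).pC x v = (bΩ Ω o).pC x v :=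
  ext2 (by
    rw [f2_ps, f2_ps]
    exact congrArg (fun T => idx (fun a b => 𝔉.B.P a b x) T (fa v))
      ((indicator_of_mem (h1 hx) _).trans (indicator_of_mem hx _).symm)) (by
    rw [s2_ps, s2_ps, sp_Ω]
    exact DFunLike.congr_fun (indicator_of_notMem (h2 x hx) _) _)

theorem pE_in (v : Ef ι (Fin o.m.N)) : (bd o).pE x v = (bΩ Ω o).pE x v :=
  ext2 (by
    rw [f2_ps, f2_ps, sm_Ω]
    exact DFunLike.congr_fun (indicator_of_notMem (h2 x hx) _) _) (by
    rw [s2_ps, s2_ps]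
    exact congrArg (fun T => idx (𝔉.B.sd x) T (s2 _ _ v))
      ((indicator_of_mem (h1 hx) _).trans (indicator_of_mem hx _).symm))

end fam

variable {𝔉 : Fam I M (Option κ) lam T} {δ : ℝ} {o : Ref 𝔉}

theorem surj_Ω (X : Ends 𝔉 δ) (hΩ : IsClopen Ω) (y : Pnt o r)
    (hp : ∀ x ∈ Ω, Lns95.PosW 𝔉.B (𝔉.G y.t) (1 / 2) x)
    (hA : ∀ x ∈ Ω, o.m.p2 𝔉.B x (o.m.Fg (𝔉.G y.t).F (o.W y.t y.α) x) = 0) (k : ℕ) :
    Surjective ((bΩ Ω o).LL 𝔉.F0.toPre (Fs 𝔉 y.t) k (base (o.W y.t y.α) 0)) := by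
  obtain ⟨ψ, sψ, h1, h2⟩ := exists_wt X y.ht
  have hG := X.ok.G _ y.ht
  have a : o.m.IsConn 𝔉.B (𝔉.G y.t) (o.W y.t y.α) := (y.ad0 X.ok).conn
  have C : Wz78.Cp (bΩ Ω o) (𝔉.G y.t).F (𝔉.G y.t).F.Gam (o.W y.t y.α) :=
    (Wz78.cp_of X.ok.B hG o.ok a).ind hΩ isClopen_empty
  have co := est X.ok.B hG o.ok a C (sm_Ω o) (fun _ => p2_in) (fun _ => p2_off) hp hA
  have H := hy_Ω o X.ok hΩ h2 hG.P
  have cu : 𝔉.F0.Cb (base (o.W y.t y.α) (0 : M → o.m.V)) := by
    convert Cb_clm (i1 _ o.m.V ∘L f2 _ o.m.V) (cb_uy X.ok y) using 2 with x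
    exact ext2 (by simp [uy, base]) (by simp [base])
  have N := H.nc_lin cu
  have e : (bΩ Ω o).lin (wt (𝔉.G y.t).F ψ sψ) (base (o.W y.t y.α) 0) =
      (bΩ Ω o).lin (𝔉.G y.t).F (base (o.W y.t y.α) 0) := Bd.lin_congr rfl rfl _
  have cl := cliff_pair (H.toOK.cliff_full H.P (base (o.W y.t y.α) 0)).2
  rw [e] at N cl
  rw [Bd.LL, Bd.lin_congr (G := (𝔉.G y.t).F) (G' := Fs 𝔉 y.t) rfl rfl,
    LH_e (G := (wt (𝔉.G y.t).F ψ sψ).toPre) (G' := (Fs 𝔉 y.t).toPre) rfl]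
  have cl' := cliff_pair (H.toOK.cliff_full hG.P (base (o.W y.t y.α) 0)).2
  have co' := coer_wt (wt_wt (𝔉.G y.t).F sψ) N.alg cl' (fun a => (sm_tr (Cb.sm (N.σ a))).neg)
    (sm_adjB _ (Cb.sm N.p) (fun a => Cb.sm (N.σ a)) (Cb.sm N.B)) h1 co
  exact surj h2 N cl (by norm_num) co' k

/-- **no cokernel over `Ω`** -/
theorem onto (X : Ends 𝔉 δ) (hk : 6 ≤ k) (hΩ : IsClopen Ω) (h1 : Ω ⊆ 𝔉.Om)
    (h2 : ∀ x ∈ Ω, x ∉ 𝔉.Om') (y : Pnt o r) (hp : ∀ x ∈ Ω, Lns95.PosW 𝔉.B (𝔉.G y.t) (1 / 2) x)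
    (hA : ∀ x ∈ Ω, o.m.p2 𝔉.B x (o.m.Fg (𝔉.G y.t).F (o.W y.t y.α) x) = 0)
    {e : T → PtX M (Option κ) lam r n m} (H : Bl Ω e y) {f : o.C r k → o.Y n m k} (hf : RepF e f)
    (w : o.Y n m k) (w1 : w.1 = 0) (w2 : w.2.2 = 0) (w3 : ∀ z ∉ Ω, 𝔉.F0.val k o.P2 w.2.1 z = 0) :
    w ∈ range (fderiv ℝ f (y.pt k)) := by
  have h := adj_rem X.ok
  have S := sup0 X.ok
  have H0 := h.hy o y.ht
  have H1 := hy_Ω o X.ok hΩ (h.tw _ y.ht) (h.P _ y.ht)
  have mC : Maps (bΩ Ω o).pC (bd o).pC fun _ => ContinuousLinearMap.id ℝ _ := fun x v hv => by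
    by_cases hx : x ∈ Ω
    · exact (pC_in h1 h2 hx v).trans hv
    · rw [pC_off hx hv, map_zero, map_zero]
  have mE : Maps (bΩ Ω o).pE (bd o).pE fun _ => ContinuousLinearMap.id ℝ _ := fun x v hv => by
    by_cases hx : x ∈ Ω
    · exact (pE_in h1 h2 hx v).trans hv
    · rw [← hv, pE_off hx, map_zero, map_zero]
  have cχ : 𝔉.F0.Cb (Ω.indicator fun _ => ContinuousLinearMap.id ℝ (Ef (Option κ) (Fin o.m.N))) :=
    Eqv71.Cb_ind hΩ (Cb_const _)
  have mχ : Maps (bd o).pE (bΩ Ω o).pE (Ω.indicator fun _ => ContinuousLinearMap.id ℝ _) :=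
    fun x v hv => by
      by_cases hx : x ∈ Ω
      · rw [indicator_of_mem hx]; exact (pE_in h1 h2 hx v).symm.trans hv
      · rw [indicator_of_notMem hx, _root_.zero_apply, map_zero]
  have cu : 𝔉.F0.Cb (base (o.W y.t y.α) (0 : M → o.m.V)) := by
    convert Cb_clm (i1 _ o.m.V ∘L f2 _ o.m.V) (cb_uy X.ok y) using 2 with x
    exact ext2 (by simp [uy, base]) (by simp [base])
  have key := RepT_eq (RepT_comp (H0.toTw.rep (H0.nc_lin (cb_uy X.ok y)) k)
    (rep_mulH (k := k + 1) (Cb_const _) mC)) (RepT_comp (rep_mulH (k := k) (Cb_const _) mE)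
      (H1.toTw.rep (H1.nc_lin cu) k)) fun u => funext fun x => by
    have pu : ∀ x, (bd o).pC x (u.1 x) = u.1 x := fun x => mC x _ (u.2.2.2 x)
    refine (op_cut _ (Cb.sm H0.cC) u.2.1 pu x).trans
      (Eq.trans ?_ (op_cut _ (Cb.sm H1.cC) u.2.1 u.2.2.2 x).symm)
    by_cases hx : x ∈ Ω
    · have e0 : (o.Φ0 + y.φ) x = 0 := y.off X.ok x (h2 x hx)
      have e : uy y x = base (o.W y.t y.α) 0 x := by simp only [uy, base, e0, Pi.zero_apply]
      rw [pE_in h1 h2 hx]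
      simp only [Pre.op, e]
      rfl
    · have e : u.1 =ᶠ[𝓝 x] fun _ => 0 := (hΩ.1.isOpen_compl.eventually_mem hx).mono fun z hz =>
        pC_off hz (u.2.2.2 z)
      simp only [Pre.op, Pre.D_def, dv_congr e, dv_const, e.self_of_nhds, Pi.zero_apply, map_zero,
        Finset.sum_const_zero, add_zero]
  obtain ⟨x', hx'⟩ := surj_Ω X hΩ y hp hA k (𝔉.F0.mulH k (bd o).pE (bΩ Ω o).pE
    (Ω.indicator fun _ => ContinuousLinearMap.id ℝ _) (sY o n m k w))
  obtain ⟨Z, hZ⟩ : ∃ Z, Z = 𝔉.F0.mulH (k + 1) (bΩ Ω o).pC (bd o).pC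
    (fun _ => ContinuousLinearMap.id ℝ _) x' := ⟨_, rfl⟩
  have vZ : ∀ z, 𝔉.F0.val _ _ Z z = 𝔉.F0.val _ _ x' z := fun z =>
    hZ ▸ val_mulH S (by omega) (Cb_const _) mC x' z
  have e1 : (bd o).LL 𝔉.F0.toPre (Fs 𝔉 y.t) k (uy y) Z = sY o n m k w := by
    refine (congrArg _ hZ).trans (((DFunLike.congr_fun key x').trans (congrArg (𝔉.F0.mulH k _ _ _)
      hx')).trans (val_injective S (by omega : 4 ≤ k) (funext fun z => ?_)))
    refine (val_mulH S (by omega) (Cb_const _) mE _ z).trans ((val_mulH S (by omega) cχ mχ _ z).trans ?_)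
    by_cases hz : z ∈ Ω
    · rw [indicator_of_mem hz]; rfl
    · rw [indicator_of_notMem hz, sY_apply, w1, map_zero, zero_add]
      exact ((val_mulH S (by omega) (Cb_const _) maps_i2 _ z).trans
        ((congrArg _ (w3 z hz)).trans (map_zero _))).symm
  have vS : ∀ z, 𝔉.F0.val _ _ (SH (k + 1) o (𝔉.Si y.t) Z) z = SC o (𝔉.Si y.t) z (𝔉.F0.val _ _ x' z) :=
    fun z => (val_mulH S (by omega) ((sb_SC o X.ok.sSi).cb _ y.ht)
      (maps_SC o X.ok (X.ok.PSi _ y.ht)) Z z).trans (congrArg _ (vZ z))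
  refine ⟨sC' o r k y.t Z, (fd_eq h hk hΩ H hf (fun z hz => ?_) (Prod.ext ?_ rfl)).trans
    ((h.fderiv_f0 hk y Z).trans ((congrArg _ e1).trans ?_))⟩
  · refine (val_mulH S (by omega) (Cb_const _) maps_f2 _ z).trans ?_
    refine (congrArg (f2 _ _) (vS z)).trans ?_
    rw [pC_off hz (val_proj S (by omega) x' z), map_zero, map_zero]
  · refine val_injective S (by omega : 4 ≤ k + 1) ((funext fun z => ?_).trans val_zero.symm)
    refine (val_mulH S (by omega) (Cb_const _) maps_s2 _ z).trans ?_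
    refine (congrArg (s2 _ _) (vS z)).trans ?_
    rw [SC, s2_sm2, ← val_proj S (by omega) x' z, s2_ps, sp_Ω]
    rfl
  · refine Prod.ext ?_ (Prod.ext ?_ w2.symm)
    · change fH _ _ o.Pm o.P2 _ = _
      rw [sY_apply, map_add, fH_iH1, fH_iH2, add_zero]
    · change sH _ _ o.Pm o.P2 _ = _
      rw [sY_apply, map_add, sH_iH1, sH_iH2, zero_add]

end Crest.Agent.X212.Cok75
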