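import Crest.Agent.X212.Loc45.Nq
import Crest.Agent.X212.Loc45.Nr
import Crest.Agent.X212.Loc45.Tm
import Crest.Agent.X212.Loc45.Ix
import Crest.Agent.X212.Ub44.Mix
import Crest.Agent.X212.Ub44.Main
import Crest.Agent.X212.Gb50.Ptw
import Crest.Agent.X212.Gb50.Pfn
import Crest.Agent.X212.Cay24.Px
import Crest.Agent.X212.Gb50.Pnq
import Crest.Agent.X212.Loc45.Cg
import Crest.Agent.X212.Cok75.Main
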